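import Vale.Agent.P237.Petty.Cor.Few.Mask
import Vale.Agent.P237.Petty.Cor.Mid50.Good
import Vale.Agent.P237.Petty.Cor.Mid32.Cell1.Data

/-!
# P237: certificates of the cell from `6 / (p + 2)` to `11 / 50`, `31 ≤ p ≤ 47`, part 2
-/

namespace Vale.Agent.P237.Petty.Cor.Mid32.Cell1

open Mid50 P100.Bernstein

def near8_ll : certify false
    (nearClaim ofRat data Corner.ll piece8 (.var 0) (.var 1))
    (box2 data piece8)
    .leaf = true := by
  refine Few.certify_of_quick ?_
  decide +kernel

def near8_lh : certify false
    (nearClaim ofRat data Corner.lh piece8 (.var 0) (.var 1))
    (box2 data piece8)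
    .leaf = true := by
  refine Few.certify_of_quick ?_
  decide +kernel

def near8_hl : certify false
    (nearClaim ofRat data Corner.hl piece8 (.var 0) (.var 1))
    (box2 data piece8)
    .leaf = true := by
  refine Few.certify_of_quick ?_
  decide +kernel

def near8_hh : certify false
    (nearClaim ofRat data Corner.hh piece8 (.var 0) (.var 1))
    (box2 data piece8)
    .leaf = true := by
  refine Few.certify_of_quick ?_
  decide +kernel

def far8_ll : certify false
    (farClaim ofRat data Corner.ll piece8 (.var 0) (.var 1) (.var 2))
    (box3 data piece8)
    .leaf = true := by
  refine Few.certify_of_quick ?_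
  decide +kernel

def far8_lh : certify false
    (farClaim ofRat data Corner.lh piece8 (.var 0) (.var 1) (.var 2))
    (box3 data piece8)
    .leaf = true := by
  refine Few.certify_of_quick ?_
  decide +kernel

def far8_hl : certify false
    (farClaim ofRat data Corner.hl piece8 (.var 0) (.var 1) (.var 2))
    (box3 data piece8)
    .leaf = true := by
  refine Few.certify_of_quick ?_
  decide +kernel

def far8_hh : certify false
    (farClaim ofRat data Corner.hh piece8 (.var 0) (.var 1) (.var 2))
    (box3 data piece8)
    .leaf = true := by
  refine Few.certify_of_quick ?_
  decide +kernel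

def top9 : certify false
    (topExpr piece9)
    (topBox data piece9)
    (.split 0 .leaf .leaf) = true := by
  refine Few.certify_of_quick ?_
  decide +kernel

def low9 : certify false
    (loExpr piece9)
    (zBox data piece9)
    (.split 0 .leaf .leaf) = true := by
  refine Few.certify_of_quick ?_
  decide +kernel

def high9 : certify false
    (hiExpr piece9)
    (zBox data piece9)
    .leaf = true := by
  refine Few.certify_of_quick ?_
  decide +kernel

def far9_ll : certify false
    (farClaim ofRat data Corner.ll piece9 (.var 0) (.var 1) (.var 2))
    (box3 data piece9)
    .leaf = true := by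
  refine Few.certify_of_quick ?_
  decide +kernel

def far9_lh : certify false
    (farClaim ofRat data Corner.lh piece9 (.var 0) (.var 1) (.var 2))
    (box3 data piece9)
    .leaf = true := by
  refine Few.certify_of_quick ?_
  decide +kernel

def far9_hl : certify false
    (farClaim ofRat data Corner.hl piece9 (.var 0) (.var 1) (.var 2))
    (box3 data piece9)
    .leaf = true := by
  refine Few.certify_of_quick ?_
  decide +kernel

def far9_hh : certify false
    (farClaim ofRat data Corner.hh piece9 (.var 0) (.var 1) (.var 2))
    (box3 data piece9)
    .leaf = true := by
  refine Few.certify_of_quick ?_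
  decide +kernel

def below9_ll : certify false
    (lowClaim ofRat data Corner.ll piece9 (.var 0) (.var 1) (.var 2))
    (box3 data piece9)
    (.split 2 .leaf (.split 2 .leaf (.split 2 .leaf (.split 2 .leaf (.split 2 .leaf
      .leaf))))) = true := by
  refine Few.certify_of_quick ?_
  decide +kernel

def below9_lh : certify false
    (lowClaim ofRat data Corner.lh piece9 (.var 0) (.var 1) (.var 2))
    (box3 data piece9)
    (.split 2 .leaf (.split 2 .leaf (.split 2 .leaf (.split 2 .leaf (.split 2 .leaf
      .leaf))))) = true := by
  refine Few.certify_of_quick ?_
  decide +kernel

def below9_hl : certify false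
    (lowClaim ofRat data Corner.hl piece9 (.var 0) (.var 1) (.var 2))
    (box3 data piece9)
    (.split 2 .leaf (.split 2 .leaf (.split 2 .leaf (.split 2 .leaf (.split 2 .leaf
      .leaf))))) = true := by
  refine Few.certify_of_quick ?_
  decide +kernel

def below9_hh : certify false
    (lowClaim ofRat data Corner.hh piece9 (.var 0) (.var 1) (.var 2))
    (box3 data piece9)
    (.split 2 .leaf (.split 2 .leaf (.split 2 .leaf (.split 2 .leaf (.split 2 .leaf
      .leaf))))) = true := by
  refine Few.certify_of_quick ?_
  decide +kernel

def top10 : certify false
    (topExpr piece10)
    (topBox data piece10)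
    (.split 0 .leaf .leaf) = true := by
  refine Few.certify_of_quick ?_
  decide +kernel

def low10 : certify false
    (loExpr piece10)
    (zBox data piece10)
    (.split 0 .leaf .leaf) = true := by
  refine Few.certify_of_quick ?_
  decide +kernel

def high10 : certify false
    (hiExpr piece10)
    (zBox data piece10)
    .leaf = true := by
  refine Few.certify_of_quick ?_
  decide +kernel

def far10_ll : certify false
    (farClaim ofRat data Corner.ll piece10 (.var 0) (.var 1) (.var 2))
    (box3 data piece10)
    .leaf = true := by
  refine Few.certify_of_quick ?_
  decide +kernel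

def far10_lh : certify false
    (farClaim ofRat data Corner.lh piece10 (.var 0) (.var 1) (.var 2))
    (box3 data piece10)
    .leaf = true := by
  refine Few.certify_of_quick ?_
  decide +kernel

def far10_hl : certify false
    (farClaim ofRat data Corner.hl piece10 (.var 0) (.var 1) (.var 2))
    (box3 data piece10)
    .leaf = true := by
  refine Few.certify_of_quick ?_
  decide +kernel

def far10_hh : certify false
    (farClaim ofRat data Corner.hh piece10 (.var 0) (.var 1) (.var 2))
    (box3 data piece10)
    .leaf = true := by
  refine Few.certify_of_quick ?_
  decide +kernel

def below10_ll : certify false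
    (lowClaim ofRat data Corner.ll piece10 (.var 0) (.var 1) (.var 2))
    (box3 data piece10)
    (.split 2 .leaf (.split 2 .leaf (.split 2 .leaf (.split 2 .leaf .leaf)))) = true := by
  refine Few.certify_of_quick ?_
  decide +kernel

def below10_lh : certify false
    (lowClaim ofRat data Corner.lh piece10 (.var 0) (.var 1) (.var 2))
    (box3 data piece10)
    (.split 2 .leaf (.split 2 .leaf (.split 2 .leaf (.split 2 .leaf .leaf)))) = true := by
  refine Few.certify_of_quick ?_
  decide +kernel

def below10_hl : certify false
    (lowClaim ofRat data Corner.hl piece10 (.var 0) (.var 1) (.var 2))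
    (box3 data piece10)
    (.split 2 .leaf (.split 2 .leaf (.split 2 .leaf (.split 2 .leaf .leaf)))) = true := by
  refine Few.certify_of_quick ?_
  decide +kernel

def below10_hh : certify false
    (lowClaim ofRat data Corner.hh piece10 (.var 0) (.var 1) (.var 2))
    (box3 data piece10)
    (.split 2 .leaf (.split 2 .leaf (.split 2 .leaf (.split 2 .leaf .leaf)))) = true := by
  refine Few.certify_of_quick ?_
  decide +kernel

def top11 : certify false
    (topExpr piece11)
    (topBox data piece11)
    (.split 0 .leaf .leaf) = true := by
  refine Few.certify_of_quick ?_
  decide +kernel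

def low11 : certify false
    (loExpr piece11)
    (zBox data piece11)
    (.split 0 .leaf .leaf) = true := by
  refine Few.certify_of_quick ?_
  decide +kernel

def high11 : certify false
    (hiExpr piece11)
    (zBox data piece11)
    .leaf = true := by
  refine Few.certify_of_quick ?_
  decide +kernel

def far11_ll : certify false
    (farClaim ofRat data Corner.ll piece11 (.var 0) (.var 1) (.var 2))
    (box3 data piece11)
    .leaf = true := by
  refine Few.certify_of_quick ?_
  decide +kernel

def far11_lh : certify false
    (farClaim ofRat data Corner.lh piece11 (.var 0) (.var 1) (.var 2))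
    (box3 data piece11)
    .leaf = true := by
  refine Few.certify_of_quick ?_
  decide +kernel

def far11_hl : certify false
    (farClaim ofRat data Corner.hl piece11 (.var 0) (.var 1) (.var 2))
    (box3 data piece11)
    .leaf = true := by
  refine Few.certify_of_quick ?_
  decide +kernel

def far11_hh : certify false
    (farClaim ofRat data Corner.hh piece11 (.var 0) (.var 1) (.var 2))
    (box3 data piece11)
    .leaf = true := by
  refine Few.certify_of_quick ?_
  decide +kernel

def below11_ll : certify false
    (lowClaim ofRat data Corner.ll piece11 (.var 0) (.var 1) (.var 2))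
    (box3 data piece11)
    (.split 2 .leaf (.split 2 .leaf (.split 2 .leaf (.split 2 .leaf .leaf)))) = true := by
  refine Few.certify_of_quick ?_
  decide +kernel

def below11_lh : certify false
    (lowClaim ofRat data Corner.lh piece11 (.var 0) (.var 1) (.var 2))
    (box3 data piece11)
    (.split 2 .leaf (.split 2 .leaf (.split 2 .leaf (.split 2 .leaf .leaf)))) = true := by
  refine Few.certify_of_quick ?_
  decide +kernel

def below11_hl : certify false
    (lowClaim ofRat data Corner.hl piece11 (.var 0) (.var 1) (.var 2))
    (box3 data piece11)
    (.split 2 .leaf (.split 2 .leaf (.split 2 .leaf (.split 2 .leaf .leaf)))) = true := by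
  refine Few.certify_of_quick ?_
  decide +kernel

def below11_hh : certify false
    (lowClaim ofRat data Corner.hh piece11 (.var 0) (.var 1) (.var 2))
    (box3 data piece11)
    (.split 2 .leaf (.split 2 .leaf (.split 2 .leaf (.split 2 .leaf .leaf)))) = true := by
  refine Few.certify_of_quick ?_
  decide +kernel

def top12 : certify false
    (topExpr piece12)
    (topBox data piece12)
    (.split 0 .leaf .leaf) = true := by
  refine Few.certify_of_quick ?_
  decide +kernel

def low12 : certify false
    (loExpr piece12)
    (zBox data piece12)
    (.split 0 .leaf .leaf) = true := by
  refine Few.certify_of_quick ?_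
  decide +kernel

def high12 : certify false
    (hiExpr piece12)
    (zBox data piece12)
    .leaf = true := by
  refine Few.certify_of_quick ?_
  decide +kernel

def far12_ll : certify false
    (farClaim ofRat data Corner.ll piece12 (.var 0) (.var 1) (.var 2))
    (box3 data piece12)
    .leaf = true := by
  refine Few.certify_of_quick ?_
  decide +kernel

def far12_lh : certify false
    (farClaim ofRat data Corner.lh piece12 (.var 0) (.var 1) (.var 2))
    (box3 data piece12)
    .leaf = true := by
  refine Few.certify_of_quick ?_
  decide +kernel

def far12_hl : certify false
    (farClaim ofRat data Corner.hl piece12 (.var 0) (.var 1) (.var 2))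
    (box3 data piece12)
    .leaf = true := by
  refine Few.certify_of_quick ?_
  decide +kernel

def far12_hh : certify false
    (farClaim ofRat data Corner.hh piece12 (.var 0) (.var 1) (.var 2))
    (box3 data piece12)
    .leaf = true := by
  refine Few.certify_of_quick ?_
  decide +kernel

def below12_ll : certify false
    (lowClaim ofRat data Corner.ll piece12 (.var 0) (.var 1) (.var 2))
    (box3 data piece12)
    (.split 2 .leaf (.split 2 .leaf (.split 2 .leaf .leaf))) = true := by
  refine Few.certify_of_quick ?_
  decide +kernel

def below12_lh : certify false
    (lowClaim ofRat data Corner.lh piece12 (.var 0) (.var 1) (.var 2))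
    (box3 data piece12)
    (.split 2 .leaf (.split 2 .leaf (.split 2 .leaf .leaf))) = true := by
  refine Few.certify_of_quick ?_
  decide +kernel

def below12_hl : certify false
    (lowClaim ofRat data Corner.hl piece12 (.var 0) (.var 1) (.var 2))
    (box3 data piece12)
    (.split 2 .leaf (.split 2 .leaf (.split 2 .leaf .leaf))) = true := by
  refine Few.certify_of_quick ?_
  decide +kernel

def below12_hh : certify false
    (lowClaim ofRat data Corner.hh piece12 (.var 0) (.var 1) (.var 2))
    (box3 data piece12)
    (.split 2 .leaf (.split 2 .leaf (.split 2 .leaf .leaf))) = true := by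
  refine Few.certify_of_quick ?_
  decide +kernel

def top13 : certify false
    (topExpr piece13)
    (topBox data piece13)
    (.split 0 .leaf .leaf) = true := by
  refine Few.certify_of_quick ?_
  decide +kernel

def low13 : certify false
    (loExpr piece13)
    (zBox data piece13)
    (.split 0 .leaf .leaf) = true := by
  refine Few.certify_of_quick ?_
  decide +kernel

def high13 : certify false
    (hiExpr piece13)
    (zBox data piece13)
    .leaf = true := by
  refine Few.certify_of_quick ?_
  decide +kernel

def far13_ll : certify false
    (farClaim ofRat data Corner.ll piece13 (.var 0) (.var 1) (.var 2))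
    (box3 data piece13)
    .leaf = true := by
  refine Few.certify_of_quick ?_
  decide +kernel

def far13_lh : certify false
    (farClaim ofRat data Corner.lh piece13 (.var 0) (.var 1) (.var 2))
    (box3 data piece13)
    .leaf = true := by
  refine Few.certify_of_quick ?_
  decide +kernel

def far13_hl : certify false
    (farClaim ofRat data Corner.hl piece13 (.var 0) (.var 1) (.var 2))
    (box3 data piece13)
    .leaf = true := by
  refine Few.certify_of_quick ?_
  decide +kernel

def far13_hh : certify false
    (farClaim ofRat data Corner.hh piece13 (.var 0) (.var 1) (.var 2))
    (box3 data piece13)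
    .leaf = true := by
  refine Few.certify_of_quick ?_
  decide +kernel

def below13_ll : certify false
    (lowClaim ofRat data Corner.ll piece13 (.var 0) (.var 1) (.var 2))
    (box3 data piece13)
    (.split 2 .leaf (.split 2 .leaf .leaf)) = true := by
  refine Few.certify_of_quick ?_
  decide +kernel

def below13_lh : certify false
    (lowClaim ofRat data Corner.lh piece13 (.var 0) (.var 1) (.var 2))
    (box3 data piece13)
    (.split 2 .leaf (.split 2 .leaf (.split 2 .leaf .leaf))) = true := by
  refine Few.certify_of_quick ?_
  decide +kernel

def below13_hl : certify false
    (lowClaim ofRat data Corner.hl piece13 (.var 0) (.var 1) (.var 2))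
    (box3 data piece13)
    (.split 2 .leaf (.split 2 .leaf .leaf)) = true := by
  refine Few.certify_of_quick ?_
  decide +kernel

end Vale.Agent.P237.Petty.Cor.Mid32.Cell1
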