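import Vale.Agent.P237.Petty.Cor.Few.Mask
import Vale.Agent.P237.Petty.Cor.Mid50.Good
import Vale.Agent.P237.Petty.Cor.Mid32.Cell1.Data

/-!
# P237: certificates of the cell from `6 / (p + 2)` to `11 / 50`, `31 ≤ p ≤ 47`, part 4
-/

namespace Vale.Agent.P237.Petty.Cor.Mid32.Cell1

open Mid50 P100.Bernstein

def far25_lh : certify false
    (farClaim ofRat data Corner.lh piece25 (.var 0) (.var 1) (.var 2))
    (box3 data piece25)
    .leaf = true := by
  refine Few.certify_of_quick ?_
  decide +kernel

def far25_hl : certify false
    (farClaim ofRat data Corner.hl piece25 (.var 0) (.var 1) (.var 2))
    (box3 data piece25)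
    .leaf = true := by
  refine Few.certify_of_quick ?_
  decide +kernel

def far25_hh : certify false
    (farClaim ofRat data Corner.hh piece25 (.var 0) (.var 1) (.var 2))
    (box3 data piece25)
    .leaf = true := by
  refine Few.certify_of_quick ?_
  decide +kernel

def below25_ll : certify false
    (lowClaim ofRat data Corner.ll piece25 (.var 0) (.var 1) (.var 2))
    (box3 data piece25)
    .leaf = true := by
  refine Few.certify_of_quick ?_
  decide +kernel

def below25_lh : certify false
    (lowClaim ofRat data Corner.lh piece25 (.var 0) (.var 1) (.var 2))
    (box3 data piece25)
    .leaf = true := by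
  refine Few.certify_of_quick ?_
  decide +kernel

def below25_hl : certify false
    (lowClaim ofRat data Corner.hl piece25 (.var 0) (.var 1) (.var 2))
    (box3 data piece25)
    .leaf = true := by
  refine Few.certify_of_quick ?_
  decide +kernel

def below25_hh : certify false
    (lowClaim ofRat data Corner.hh piece25 (.var 0) (.var 1) (.var 2))
    (box3 data piece25)
    .leaf = true := by
  refine Few.certify_of_quick ?_
  decide +kernel

def top26 : certify false
    (topExpr piece26)
    (topBox data piece26)
    (.split 0 .leaf .leaf) = true := by
  refine Few.certify_of_quick ?_
  decide +kernel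

def low26 : certify false
    (loExpr piece26)
    (zBox data piece26)
    (.split 0 .leaf (.split 0 (.split 0 .leaf .leaf) .leaf)) = true := by
  refine Few.certify_of_quick ?_
  decide +kernel

def high26 : certify false
    (hiExpr piece26)
    (zBox data piece26)
    .leaf = true := by
  refine Few.certify_of_quick ?_
  decide +kernel

def far26_ll : certify false
    (farClaim ofRat data Corner.ll piece26 (.var 0) (.var 1) (.var 2))
    (box3 data piece26)
    .leaf = true := by
  refine Few.certify_of_quick ?_
  decide +kernel

def far26_lh : certify false
    (farClaim ofRat data Corner.lh piece26 (.var 0) (.var 1) (.var 2))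
    (box3 data piece26)
    .leaf = true := by
  refine Few.certify_of_quick ?_
  decide +kernel

def far26_hl : certify false
    (farClaim ofRat data Corner.hl piece26 (.var 0) (.var 1) (.var 2))
    (box3 data piece26)
    .leaf = true := by
  refine Few.certify_of_quick ?_
  decide +kernel

def far26_hh : certify false
    (farClaim ofRat data Corner.hh piece26 (.var 0) (.var 1) (.var 2))
    (box3 data piece26)
    .leaf = true := by
  refine Few.certify_of_quick ?_
  decide +kernel

def below26_ll : certify false
    (lowClaim ofRat data Corner.ll piece26 (.var 0) (.var 1) (.var 2))
    (box3 data piece26)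
    .leaf = true := by
  refine Few.certify_of_quick ?_
  decide +kernel

def below26_lh : certify false
    (lowClaim ofRat data Corner.lh piece26 (.var 0) (.var 1) (.var 2))
    (box3 data piece26)
    .leaf = true := by
  refine Few.certify_of_quick ?_
  decide +kernel

def below26_hl : certify false
    (lowClaim ofRat data Corner.hl piece26 (.var 0) (.var 1) (.var 2))
    (box3 data piece26)
    .leaf = true := by
  refine Few.certify_of_quick ?_
  decide +kernel

def below26_hh : certify false
    (lowClaim ofRat data Corner.hh piece26 (.var 0) (.var 1) (.var 2))
    (box3 data piece26)
    .leaf = true := by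
  refine Few.certify_of_quick ?_
  decide +kernel

def top27 : certify false
    (topExpr piece27)
    (topBox data piece27)
    (.split 0 .leaf .leaf) = true := by
  refine Few.certify_of_quick ?_
  decide +kernel

def low27 : certify false
    (loExpr piece27)
    (zBox data piece27)
    (.split 0 .leaf (.split 0 (.split 0 .leaf .leaf) .leaf)) = true := by
  refine Few.certify_of_quick ?_
  decide +kernel

def high27 : certify false
    (hiExpr piece27)
    (zBox data piece27)
    .leaf = true := by
  refine Few.certify_of_quick ?_
  decide +kernel

def far27_ll : certify false
    (farClaim ofRat data Corner.ll piece27 (.var 0) (.var 1) (.var 2))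
    (box3 data piece27)
    .leaf = true := by
  refine Few.certify_of_quick ?_
  decide +kernel

def far27_lh : certify false
    (farClaim ofRat data Corner.lh piece27 (.var 0) (.var 1) (.var 2))
    (box3 data piece27)
    .leaf = true := by
  refine Few.certify_of_quick ?_
  decide +kernel

def far27_hl : certify false
    (farClaim ofRat data Corner.hl piece27 (.var 0) (.var 1) (.var 2))
    (box3 data piece27)
    .leaf = true := by
  refine Few.certify_of_quick ?_
  decide +kernel

def far27_hh : certify false
    (farClaim ofRat data Corner.hh piece27 (.var 0) (.var 1) (.var 2))
    (box3 data piece27)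
    .leaf = true := by
  refine Few.certify_of_quick ?_
  decide +kernel

def below27_ll : certify false
    (lowClaim ofRat data Corner.ll piece27 (.var 0) (.var 1) (.var 2))
    (box3 data piece27)
    .leaf = true := by
  refine Few.certify_of_quick ?_
  decide +kernel

def below27_lh : certify false
    (lowClaim ofRat data Corner.lh piece27 (.var 0) (.var 1) (.var 2))
    (box3 data piece27)
    .leaf = true := by
  refine Few.certify_of_quick ?_
  decide +kernel

def below27_hl : certify false
    (lowClaim ofRat data Corner.hl piece27 (.var 0) (.var 1) (.var 2))
    (box3 data piece27)
    .leaf = true := by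
  refine Few.certify_of_quick ?_
  decide +kernel

def below27_hh : certify false
    (lowClaim ofRat data Corner.hh piece27 (.var 0) (.var 1) (.var 2))
    (box3 data piece27)
    .leaf = true := by
  refine Few.certify_of_quick ?_
  decide +kernel

def top28 : certify false
    (topExpr piece28)
    (topBox data piece28)
    (.split 0 .leaf .leaf) = true := by
  refine Few.certify_of_quick ?_
  decide +kernel

def low28 : certify false
    (loExpr piece28)
    (zBox data piece28)
    (.split 0 .leaf (.split 0 .leaf .leaf)) = true := by
  refine Few.certify_of_quick ?_
  decide +kernel

def high28 : certify false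
    (hiExpr piece28)
    (zBox data piece28)
    .leaf = true := by
  refine Few.certify_of_quick ?_
  decide +kernel

def far28_ll : certify false
    (farClaim ofRat data Corner.ll piece28 (.var 0) (.var 1) (.var 2))
    (box3 data piece28)
    .leaf = true := by
  refine Few.certify_of_quick ?_
  decide +kernel

def far28_lh : certify false
    (farClaim ofRat data Corner.lh piece28 (.var 0) (.var 1) (.var 2))
    (box3 data piece28)
    .leaf = true := by
  refine Few.certify_of_quick ?_
  decide +kernel

def far28_hl : certify false
    (farClaim ofRat data Corner.hl piece28 (.var 0) (.var 1) (.var 2))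
    (box3 data piece28)
    .leaf = true := by
  refine Few.certify_of_quick ?_
  decide +kernel

def far28_hh : certify false
    (farClaim ofRat data Corner.hh piece28 (.var 0) (.var 1) (.var 2))
    (box3 data piece28)
    .leaf = true := by
  refine Few.certify_of_quick ?_
  decide +kernel

def below28_ll : certify false
    (lowClaim ofRat data Corner.ll piece28 (.var 0) (.var 1) (.var 2))
    (box3 data piece28)
    .leaf = true := by
  refine Few.certify_of_quick ?_
  decide +kernel

def below28_lh : certify false
    (lowClaim ofRat data Corner.lh piece28 (.var 0) (.var 1) (.var 2))
    (box3 data piece28)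
    .leaf = true := by
  refine Few.certify_of_quick ?_
  decide +kernel

def below28_hl : certify false
    (lowClaim ofRat data Corner.hl piece28 (.var 0) (.var 1) (.var 2))
    (box3 data piece28)
    .leaf = true := by
  refine Few.certify_of_quick ?_
  decide +kernel

def below28_hh : certify false
    (lowClaim ofRat data Corner.hh piece28 (.var 0) (.var 1) (.var 2))
    (box3 data piece28)
    .leaf = true := by
  refine Few.certify_of_quick ?_
  decide +kernel

def top29 : certify false
    (topExpr piece29)
    (topBox data piece29)
    (.split 0 .leaf .leaf) = true := by
  refine Few.certify_of_quick ?_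
  decide +kernel

def low29 : certify false
    (loExpr piece29)
    (zBox data piece29)
    (.split 0 .leaf (.split 0 .leaf .leaf)) = true := by
  refine Few.certify_of_quick ?_
  decide +kernel

def high29 : certify false
    (hiExpr piece29)
    (zBox data piece29)
    .leaf = true := by
  refine Few.certify_of_quick ?_
  decide +kernel

def far29_ll : certify false
    (farClaim ofRat data Corner.ll piece29 (.var 0) (.var 1) (.var 2))
    (box3 data piece29)
    .leaf = true := by
  refine Few.certify_of_quick ?_
  decide +kernel

def far29_lh : certify false
    (farClaim ofRat data Corner.lh piece29 (.var 0) (.var 1) (.var 2))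
    (box3 data piece29)
    .leaf = true := by
  refine Few.certify_of_quick ?_
  decide +kernel

def far29_hl : certify false
    (farClaim ofRat data Corner.hl piece29 (.var 0) (.var 1) (.var 2))
    (box3 data piece29)
    .leaf = true := by
  refine Few.certify_of_quick ?_
  decide +kernel

def far29_hh : certify false
    (farClaim ofRat data Corner.hh piece29 (.var 0) (.var 1) (.var 2))
    (box3 data piece29)
    .leaf = true := by
  refine Few.certify_of_quick ?_
  decide +kernel

def below29_ll : certify false
    (lowClaim ofRat data Corner.ll piece29 (.var 0) (.var 1) (.var 2))
    (box3 data piece29)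
    .leaf = true := by
  refine Few.certify_of_quick ?_
  decide +kernel

def below29_lh : certify false
    (lowClaim ofRat data Corner.lh piece29 (.var 0) (.var 1) (.var 2))
    (box3 data piece29)
    .leaf = true := by
  refine Few.certify_of_quick ?_
  decide +kernel

def below29_hl : certify false
    (lowClaim ofRat data Corner.hl piece29 (.var 0) (.var 1) (.var 2))
    (box3 data piece29)
    .leaf = true := by
  refine Few.certify_of_quick ?_
  decide +kernel

def below29_hh : certify false
    (lowClaim ofRat data Corner.hh piece29 (.var 0) (.var 1) (.var 2))
    (box3 data piece29)
    .leaf = true := by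
  refine Few.certify_of_quick ?_
  decide +kernel

def top30 : certify false
    (topExpr piece30)
    (topBox data piece30)
    (.split 0 .leaf .leaf) = true := by
  refine Few.certify_of_quick ?_
  decide +kernel

def low30 : certify false
    (loExpr piece30)
    (zBox data piece30)
    .leaf = true := by
  refine Few.certify_of_quick ?_
  decide +kernel

def high30 : certify false
    (hiExpr piece30)
    (zBox data piece30)
    .leaf = true := by
  refine Few.certify_of_quick ?_
  decide +kernel

def far30_ll : certify false
    (farClaim ofRat data Corner.ll piece30 (.var 0) (.var 1) (.var 2))
    (box3 data piece30)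
    .leaf = true := by
  refine Few.certify_of_quick ?_
  decide +kernel

def far30_lh : certify false
    (farClaim ofRat data Corner.lh piece30 (.var 0) (.var 1) (.var 2))
    (box3 data piece30)
    .leaf = true := by
  refine Few.certify_of_quick ?_
  decide +kernel

def far30_hl : certify false
    (farClaim ofRat data Corner.hl piece30 (.var 0) (.var 1) (.var 2))
    (box3 data piece30)
    .leaf = true := by
  refine Few.certify_of_quick ?_
  decide +kernel

def far30_hh : certify false
    (farClaim ofRat data Corner.hh piece30 (.var 0) (.var 1) (.var 2))
    (box3 data piece30)
    .leaf = true := by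
  refine Few.certify_of_quick ?_
  decide +kernel

def below30_ll : certify false
    (lowClaim ofRat data Corner.ll piece30 (.var 0) (.var 1) (.var 2))
    (box3 data piece30)
    .leaf = true := by
  refine Few.certify_of_quick ?_
  decide +kernel

def below30_lh : certify false
    (lowClaim ofRat data Corner.lh piece30 (.var 0) (.var 1) (.var 2))
    (box3 data piece30)
    .leaf = true := by
  refine Few.certify_of_quick ?_
  decide +kernel

def below30_hl : certify false
    (lowClaim ofRat data Corner.hl piece30 (.var 0) (.var 1) (.var 2))
    (box3 data piece30)
    .leaf = true := by
  refine Few.certify_of_quick ?_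
  decide +kernel

def below30_hh : certify false
    (lowClaim ofRat data Corner.hh piece30 (.var 0) (.var 1) (.var 2))
    (box3 data piece30)
    .leaf = true := by
  refine Few.certify_of_quick ?_
  decide +kernel

end Vale.Agent.P237.Petty.Cor.Mid32.Cell1
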